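import Crest.Agent.N221.Dy.Nd

/-!
Row 221, G0 INSTANCE (helper73): the geometric core of the steps of `G0.Sy` on the real charts.
`Gm f f' ξ R β T D`: the plaque of the stable leaf of `ξ` over `ball 0 R` flies from the chart `f`
to the chart `f'`, stays in the box of size `β`, the flight time is `≥ T`, the frames are `D`-close.
(Unstable plaques: apply it to `fp f`, `fp f'`.)
-/

set_option autoImplicit false

open MeasureTheory Set Filter Topology Metric
open scoped ContDiff RealInnerProductSpace ENNReal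
open Crest.GeometryTopology.Submanifold
open Crest.Agent.R241.DDefs Crest.Agent.R241.D2
open Crest.Agent.R208.J Crest.Agent.R208.L

noncomputable section

namespace Crest.Agent.N221.Cov

variable {n N m : ℕ} {a : ℝ} {S : Set (Euc N)} {G : Geo n N (-(a ^ 2)) S} (C : Cov G)

/-- geometric core of a step -/
structure Gm (f f' : FF n N m) (ξ : Euc n) (R β T D : ℝ) : Prop where
  frm : C.Frm f
  frm' : C.Frm f'
  fw : C.Fw f ξ
  dd : C.dd f.1 f'.1 ≤ D
  pl : ∀ y : Euc m, ‖y‖ < R → C.gs f ξ y ∈ C.dm f f' ∧ ‖C.gs f ξ y‖ ≤ β ∧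
    ‖C.Tf f f' (C.gs f ξ y)‖ ≤ β ∧ T ≤ C.tm f f' (C.gs f ξ y)





end Crest.Agent.N221.Cov
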