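import Crest.Agent.N221.G0.Im2
import Crest.Agent.N221.GI.St2
import Crest.Agent.N221.Ni.Gl2_Mg

-- ▼ part N221/G0/IFl
section

/-! Row 221, block G0, instance (helper39): a smooth maximal bundle of relations is a `Flag`. -/

set_option autoImplicit false
set_option linter.unusedSectionVars false
set_option linter.unusedVariables false

open MeasureTheory Set Filter Topology Metric
open scoped ContDiff RealInnerProductSpace ENNReal
open Crest.GeometryTopology.Submanifold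
open Crest.Agent.R241.DDefs Crest.Agent.R241.D2
open Crest.Agent.R208.J Crest.Agent.R208.L

noncomputable section

namespace Crest.Agent.N221.Cov

variable {n N m r : ℕ} {a : ℝ} {S : Set (Euc N)} {G : Geo n N (-(a ^ 2)) S} (C : Cov G)
variable {f f' : FF n N m} {z : ZZ m} {g : Euc n → Euc n} {h c : ℝ} {α : TT N → ℝ}
  {O : Set (ZZ m)} {δ : ZZ m → WW m →L[ℝ] Euc r}

/-- `δ` is a maximal bundle of relations on `O` in the chart `f` -/
structure MaxR (α : TT N → ℝ) (c : ℝ) (f : FF n N m) (O : Set (ZZ m))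
    (δ : ZZ m → WW m →L[ℝ] Euc r) : Prop where
  op : IsOpen O
  sub : O ⊆ ball 0 (C.rr m)
  sm : ContDiffOn ℝ ∞ δ O
  rel : ∀ z ∈ O, δ z (C.MM α c f z) = 0
  max : ∀ z ∈ O, ∀ θ : Euc m → WW m →L[ℝ] ℝ, (∀ᶠ y in 𝓝 z.1, ContDiffAt ℝ ∞ θ y ∧
    θ y (C.MM α c f (C.gs f (C.ge f z).1 y)) = 0) → ∀ v, δ z v = 0 → θ z.1 v = 0

variable (H : Hyp n N a S) (hm : m + 1 = n)
include H hm

lemma ev_le (hz : ‖z‖ < C.rr m) : ∀ᶠ y in 𝓝 z.1, ‖y‖ < 2 * C.rr m :=
  (isOpen_lt continuous_norm continuous_const).mem_nhds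
    ((norm_fst_le z).trans_lt (by linarith [C.rr_pos H hm]))

lemma MaxR.deck (hM : C.MaxR α c f O δ) (hf : C.Frm f) (hg : C.Deck g) :
    C.MaxR α c (fg g f) O δ := by
  have r0 := C.rr_pos H hm
  have k : ∀ z ∈ O, ‖z‖ ≤ 2 * C.rr m := fun z hz => by linarith [mem_ball_zero_iff.1 (hM.sub hz)]
  refine ⟨hM.op, hM.sub, hM.sm, fun z hz => ?_, fun z hz θ hθ => hM.max z hz θ ?_⟩
  · rw [C.MM_fg H hf hg (C.Dm_of_le H hm hf (k z hz))]
    exact hM.rel z hz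
  · have hξ := (C.rad H hm).front f hf z (k z hz)
    rw [C.ge_fg H hf hg (C.Dm_of_le H hm hf (k z hz)), C.gs_fg H hf hg (bas_ne0 hξ.1)] at hθ
    filter_upwards [hθ, C.ev_le H hm (mem_ball_zero_iff.1 (hM.sub hz))] with y h1 h2
    rwa [C.MM_fg H hf hg (C.ge_gs H hm hf hξ h2.le).1] at h1

lemma MaxR.push (hc : Co G h α c) (hM : C.MaxR α c f O δ) (hM' : C.MaxR α c f' O δ) (hf : C.Frm f)
    (hf' : C.Frm f') (hz : z ∈ C.dm f f') (h1 : z ∈ O) (h2 : C.Tf f f' z ∈ O) {v : WW m}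
    (hv : δ z v = 0) : δ (C.Tf f f' z) (C.Bc h f' f (C.Tf f f' z) v) = 0 := by
  have r0 := C.rr_pos H hm
  have hD := C.Dm_of_le H hm hf (z := z) (by linarith [hz.1])
  have e := C.eq_gs H hf hD
  have s : ContDiff ℝ ∞ (C.gs f (C.ge f z).1) :=
    contDiff_id.prodMk (C.contDiff_pq H (bas_ne0 (C.ge_GG H hf hD).1) f)
  have t : Tendsto (C.gs f (C.ge f z).1) (𝓝 z.1) (𝓝 z) := by
    simpa only [ContinuousAt, e] using s.continuous.continuousAt (x := z.1)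
  obtain ⟨b, d, -, -, k⟩ := C.am_all H hm hc (C.dd f.1 f'.1)
  ext i
  have := hM.max z h1 (fun y => EuclideanSpace.proj i ∘L δ (C.Tf f f' (C.gs f (C.ge f z).1 y)) ∘L
    C.Bc h f' f (C.Tf f f' (C.gs f (C.ge f z).1 y))) ?_ v hv
  · simpa [e] using this
  filter_upwards [t.eventually ((C.isOpen_dm H hm hf hf').mem_nhds hz), t.eventually
    ((C.contDiffAt_Tf H hm hf hf' hz).continuousAt.eventually (hM.op.mem_nhds h2))] with y y1 y2
  obtain ⟨k1, k2, -, -, -, -, k3⟩ := k f f' _ hf hf' le_rfl y1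
  refine ⟨contDiffAt_const.clm_comp ((((hM.sm.contDiffAt (hM.op.mem_nhds y2)).comp _ k1.1).comp y
    s.contDiffAt).clm_comp (k2.1.comp y s.contDiffAt)), ?_⟩
  simp [k3, hM'.rel _ y2]

theorem MaxR.flag (hc : Co G h α c) (hM : C.MaxR α c f O δ) (hf : C.Frm f) (hO : O.Nonempty) :
    (C.pd f).Flag := by
  have r0 := C.rr_pos H hm
  refine ⟨O, r, δ, hM.op, hO, hM.sub, hM.sm, fun z hz => ?_, fun z hz => ?_, ?_⟩
  · refine ⟨dfm (C.Su f z), Real.exp (C.aa α c f (C.ge f z).2 z.1), fun v => rfl, ?_⟩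
    have := congrArg (Real.exp (C.aa α c f (C.ge f z).2 z.1) • ·) (hM.rel z hz)
    simpa [← map_smul, MM_eq, smul_smul, ← Real.exp_add] using this
  · have z1 := mem_ball_zero_iff.1 (hM.sub hz)
    have hξ := (C.rad H hm).front f hf z (by linarith)
    obtain ⟨d, -, k⟩ := C.uj_lam H hm hc
    refine ⟨(-1) ^ m * Real.exp (-C.aa α c f (C.ge f z).1 z.1), by positivity, fun φ t hv => ?_⟩
    have := hM.max z hz (C.lam α c f (C.ge f z).1) ((C.ev_le H hm z1).mono fun y hy =>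
      ⟨(k f _ y hf hξ hy).1, C.lam_gs H hm hc hf hξ hy.le⟩) _ hv
    rw [lam_apply, sub_eq_zero] at this
    change t = _ * φ (gbas (C.HH f (C.ge f z).1 z.1))
    rw [mul_assoc, this, ← mul_assoc, ← mul_pow]
    simp
  · rintro z hz T ⟨g, hg, h1, h2⟩ h3
    change z ∈ C.dm f (N221.fg g f) at h1
    change T =ᶠ[𝓝 z] C.Tf f (fg g f) at h2
    rw [h2.eq_of_nhds] at h3 ⊢
    have hf' := hf.fg C hg
    have hM' := hM.deck C H hm hf hg
    obtain ⟨a1, a2, -⟩ := C.Tf_symm H hm hf hf' h1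
    have s0 : C.sg f (fg g f) z * Real.exp (h * C.tm f (fg g f) z) ≠ 0 := by
      rcases C.sg_sq H hm hf hf' h1 with e | e <;> rw [e] <;> simp
    refine ⟨_, inv_ne_zero s0, fun φ t => ?_⟩
    have e : (φ.compContinuousLinearMap fun _ => fderiv ℝ T z,
        (C.sg f (fg g f) z * Real.exp (h * C.tm f (fg g f) z))⁻¹ * t) =
        (C.sg f (fg g f) z * Real.exp (h * C.tm f (fg g f) z))⁻¹ • C.Bc h f (fg g f) z (φ, t) := by
      rw [Bc_apply, h2.fderiv_eq, Prod.smul_mk, smul_smul, inv_mul_cancel₀ s0, one_smul]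
      rfl
    rw [e, map_smul, smul_eq_zero_iff_right (inv_ne_zero s0)]
    refine ⟨fun hv => ?_, fun hv => ?_⟩
    · have := hM'.push C H hm hc hM hf' hf a1 h3 (by rwa [a2]) hv
      rwa [a2] at this
    · have := hM.push C H hm hc hM' hf hf' h1 hz h3 hv
      rwa [C.Bc_Bc' H hm hf hf' h1] at this

end Crest.Agent.N221.Cov
end
end

-- ▼ part N221/GI/Dy3
section

/-!
Row 221, G0 INSTANCE (helper24): `Dyn3` from the three cores, and the assembly `g0S_of`.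
-/

set_option autoImplicit false
set_option linter.unusedSectionVars false

open MeasureTheory Set Filter Topology Metric
open scoped ContDiff RealInnerProductSpace ENNReal
open Crest.GeometryTopology.Submanifold
open Crest.Agent.R241.DDefs Crest.Agent.R241.D2
open Crest.Agent.R208.J Crest.Agent.R208.L

noncomputable section

namespace Crest.Agent.N221.Cov

open G0

variable {n N m : ℕ} {a : ℝ} {S : Set (Euc N)} {G : Geo n N (-(a ^ 2)) S} (C : Cov G)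
variable {F F' : FF n N m} {z : ZZ m} {ξ : Euc n} {g : Euc n → Euc n} {h c : ℝ} {α : TT N → ℝ}
  {R β T D : ℝ}

/-- the geometry of the steps with the constants in the order of `Sy` -/
def D3S (m : ℕ) : Prop := ∀ e b0 : ℝ, 0 < e → 1 ≤ b0 → ∃ R1 : ℝ, 0 < R1 ∧ ∀ R, 0 < R → R ≤ R1 →
  ∃ r2 : ℝ, 0 < r2 ∧ ∀ r1 κ τ : ℝ, 0 < r1 → r1 ≤ r2 → 0 < κ → ∃ D, C.Dyn3 m b0 R e r1 κ D τ

variable {C} in
lemma Gm.sg (h : C.Gm F F' ξ R β T D) {β' D' : ℝ} (hβ : β ≤ β') (hD : D ≤ D')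
    (h0 : ‖C.lf F F' ξ 0‖ ≤ 2 * R / 3) : C.Sg R β' D' T F ξ F' :=
  ⟨h.frm, h.frm', h.fw, h.dd.trans hD, h0, fun q hq => by
    obtain ⟨h1, h2, h3, h4⟩ := h.pl q (mem_ball_zero_iff.1 hq)
    exact ⟨h1, h2.trans hβ, h3.trans hβ, h4⟩⟩

/-- the system of all frames -/
def syA (m : ℕ) (α : TT N → ℝ) (c R r0 r1 b b0 th : ℝ) (d : ℕ → ℝ) : G0.Sy (Euc m) (WW m) where
  F := {f : FF n N m // C.Frm f}
  g i f := C.gg i f.1
  M f := C.MM α c f.1
  R0 := C.rr m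
  R := R
  r0 := r0
  r1 := r1
  q := 1 / 6
  b := b
  b0 := b0
  th := th
  c := d

variable (H : Hyp n N a S) (hm : m + 1 = n)
include H hm


theorem ok_syA (hc : Co G h α c) (hd : C.D3S m) :
    ∃ R r0 r1 b b0 th d, R ≤ C.rr m ∧ (C.syA m α c R r0 r1 b b0 th d).Ok := by
  have rr0 := C.rr_pos H hm (m := m)
  have rr1 := (C.rad H hm).le
  have ha := H.a_pos
  obtain ⟨b0, th, c0, gs⟩ := C.gg_static H hm
  have b01 := gs.b01
  obtain ⟨R1, R10, hd⟩ := hd (C.rr m / 2) b0 (by positivity) b01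
  obtain ⟨R, R0, a1, a2⟩ : ∃ R, 0 < R ∧ R ≤ R1 ∧ 8 * b0 * R ≤ C.rr m :=
    ⟨min R1 (C.rr m / (8 * b0)), by positivity, min_le_left _ _, by
      rw [← le_div_iff₀' (by positivity)]; exact min_le_right _ _⟩
  obtain ⟨r2, r20, hd⟩ := hd R R0 a1
  obtain ⟨r1, r10, a3, a4⟩ : ∃ r1, 0 < r1 ∧ r1 ≤ r2 ∧ 12 * b0 * r1 ≤ R :=
    ⟨min r2 (R / (12 * b0)), by positivity, min_le_left _ _, by
      rw [← le_div_iff₀' (by positivity)]; exact min_le_right _ _⟩
  obtain ⟨D, hd⟩ := hd r1 (1 / 6) (Real.log 48 / a) r10 a3 (by norm_num)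
  obtain ⟨r, L, b, d, r0, L1, b1, d1, hdy⟩ :=
    C.ok_dyn H hm hc (β := C.rr m / 2) (by linarith) D
  obtain ⟨e, e1, he⟩ := C.uj_nu H hm hc
  obtain ⟨ρ, ρ0, a5, a6, a7⟩ : ∃ ρ, 0 < ρ ∧ ρ ≤ r ∧ ρ ≤ R ∧ L * ρ ≤ C.rr m / 2 :=
    ⟨min (min r R) (C.rr m / 2 / L), by positivity, (min_le_left _ _).trans (min_le_left _ _),
      (min_le_left _ _).trans (min_le_right _ _), by
      rw [← le_div_iff₀' (by positivity)]; exact min_le_right _ _⟩
  have bR : R ≤ b0 * R := by nlinarith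
  have br : r1 ≤ b0 * r1 := by nlinarith
  have gs' := GS.mono C gs le_rfl (c' := fun k => max (c0 k) (max (d k) (e k)))
    fun k => le_max_left _ _
  obtain ⟨f1, f2, f3⟩ := hdy (C.syA m α c R ρ r1 (max b b0) b0 th
    fun k => max (c0 k) (max (d k) (e k))) (Real.log 48 / a) a5
    (show C.rr m / 2 + L * ρ ≤ C.rr m by linarith) (le_max_left _ _)
    (fun k => le_max_of_le_right (le_max_left _ _))
    (div_nonneg (Real.log_nonneg (by norm_num)) ha.le)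
    (by
      rw [mul_div_cancel₀ _ ha.ne', Real.exp_neg, Real.exp_log (by norm_num)]
      exact le_of_eq (by norm_num [syA]))
    le_rfl R0 b01 (show b0 * R < C.rr m by linarith) (show r1 < C.rr m by linarith) le_rfl
    (fun f => ⟨f.1, f.2, fun _ _ => rfl, fun _ _ => rfl, fun _ _ => rfl⟩)
    (fun F hF => ⟨⟨F, hF⟩, hF, fun _ _ => rfl, fun _ _ => rfl, fun _ _ => rfl⟩) hd
  have l2 : ∀ {E : Type} [NormedAddCommGroup E] {x : E}, ‖x‖ < C.rr m → ‖x‖ ≤ 2 * C.rr m :=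
    fun hx => by linarith
  have l3 : ∀ {x : Euc m}, x ∈ ball (0 : Euc m) (C.rr m) → ‖x‖ ≤ 2 * C.rr m :=
    fun hx => l2 (mem_ball_zero_iff.1 hx)
  refine ⟨R, ρ, r1, max b b0, b0, th, _, by linarith, ⟨?_, ρ0, r10, (by norm_num : (0 : ℝ) < 1 / 6),
    le_rfl, b01, le_max_right _ _, gs.thp, gs.th1, gs'.c1, a6, a4, a2,
    (by linarith : C.rr m ≤ 1), fun i f z hz => C.gg_self H hm i f.2 (l2 hz),
    fun i f z y hz hy => C.gg_lab H hm i f.2 (l2 hz) ((norm_fst_le (y, C.gg i f.1 z y)).trans (l2 hy)),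
    fun i f z hz y hy => gs'.jet i f.1 z y f.2 (l2 hz) (by linarith [l3 hy]),
    fun i f z hz y hy => gs.slope i f.1 z y f.2 (l2 hz) (by linarith [l3 hy]),
    fun f z hz => ⟨C.nu α c f.1 (C.ge f.1 z).2, fun y hy => ⟨?_, fun _ => ?_⟩⟩,
    fun f z z' hz hz' y hy v => gs.trv f.1 z z' y v f.2 (l2 hz) (l2 hz') (l3 hy),
    fun f z z' hz hz' y hy y' hy' => gs.sep f.1 z z' y y' f.2 (l2 hz) (l2 hz') (l3 hy) (l3 hy'),
    fun f z z' y hz hz' hy k => gs.int f.1 z z' y f.2 (l2 hz) (l2 hz') ?_ ?_,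
    fun i f z z' hz hz' => gs.hol i f.1 z z' f.2 (l2 hz) (l2 hz'), f1, f2, f3⟩⟩
  · obtain ⟨ξ, hξ, η, -⟩ := dyn_third (n := n) H 0 0
    obtain ⟨L, hL⟩ := C.exists_frm hm (C.un_dir0 (bas_ne0 hξ))
    exact ⟨⟨_, hL⟩⟩
  · exact (he f.1 _ y f.2 (C.back H hm f.2 (l2 hz))
      (by linarith [show ‖y‖ < C.rr m from mem_ball_zero_iff.1 hy])).mono
      fun k => le_max_of_le_right (le_max_right _ _)
  · exact C.MM_gu H hm f.2 (C.back H hm f.2 (l2 hz)) (l3 hy)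
  · exact le_trans hy (show R ≤ C.rr m by linarith)
  · have k' : ‖C.gg true f.1 z' y - C.gg false f.1 z y‖ ≤ r1 := k
    nlinarith [mul_le_mul_of_nonneg_left k' (show 0 ≤ b0 by linarith)]

end Crest.Agent.N221.Cov

namespace Crest.Agent.N221

/-- THE ASSEMBLY -/
theorem g0S_of (hA : G0.G0A) (hd : ∀ (n N m : ℕ) (a : ℝ) (S : Set (Euc N))
    (G : Geo n N (-(a ^ 2)) S) (C : Cov G), Hyp n N a S → m + 1 = n → C.D3S m) : G0S := by
  intro n N m a S G C H hm hc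
  obtain ⟨h, α, c, hc⟩ := exists_co H hc
  obtain ⟨R, r0, r1, b, b0, th, d, hR, ok⟩ := C.ok_syA H hm hc (hd n N m a S G C H hm)
  obtain ⟨f, O, r, δ, h1, h2, h3, h4, h5, h6⟩ := hA m (WW m) _ ok
  have r0 := C.rr_pos H hm (m := m)
  exact ⟨f.1, f.2, Cov.MaxR.flag C H hm hc (δ := δ)
    ⟨h1, h3.trans (ball_subset_ball (show R / 2 ≤ C.rr m by linarith)), h4, h5, h6⟩ f.2 h2⟩


end Crest.Agent.N221
end
end

-- ▼ part N221/GI/Fin

/-! Row 221, G0 INSTANCE (helper24): `G0S` from the abstract statement `G0A`. -/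

set_option autoImplicit false

namespace Crest.Agent.N221

theorem g0S_A (hA : G0.G0A) : G0S :=
  g0S_of hA fun n N m a S G C H hm e b0 he hb => by
    obtain ⟨R1, h1, h⟩ := C.dyn3 H hm he hb
    refine ⟨R1, h1, fun R R0 hR => ?_⟩
    obtain ⟨r2, h2, h⟩ := h R R0 hR
    exact ⟨r2, h2, fun r1 κ τ a1 a2 a3 => h r1 a1 a2 κ a3 τ⟩

end Crest.Agent.N221
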